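import Mathlib

/-!
# P196: from approximate real flows to exact integer flows

An integer linear system with a nonnegative real solution has a natural-number solution with
the same support, and approximate support constraints pass to the limit by compactness.
-/

namespace Vale.Agent.P196.Tree

open Finset Filter Topology

variable {ι κ : Type*} [Fintype ι]

theorem exists_nat_solution (A : κ → ι → ℤ) (x : ι → ℝ) (hx : ∀ i, 0 ≤ x i)
    (hA : ∀ k, ∑ i, (A k i : ℝ) * x i = 0) :
    ∃ w : ι → ℕ, (∀ i, w i = 0 ↔ x i = 0) ∧ ∀ k, ∑ i, A k i * (w i : ℤ) = 0 := by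
  classical
  set V : Submodule ℚ ℝ := Submodule.span ℚ (Set.range x) with hV
  have : FiniteDimensional ℚ V := FiniteDimensional.span_of_finite ℚ (Set.finite_range x)
  set b := Module.finBasis ℚ V with hb
  set d := Module.finrank ℚ V
  set α : Fin d → ℝ := fun j => (b j : ℝ) with hα
  have hli : LinearIndependent ℚ α :=
    b.linearIndependent.map' V.subtype (Submodule.ker_subtype V)
  set q : ι → Fin d → ℚ := fun i j => b.repr ⟨x i, Submodule.subset_span ⟨i, rfl⟩⟩ j with hq
  have hrep : ∀ i, x i = ∑ j, (q i j : ℝ) * α j := fun i => by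
    have h := congrArg (fun v : V => (v : ℝ))
      (b.sum_repr ⟨x i, Submodule.subset_span ⟨i, rfl⟩⟩)
    simp only [Submodule.coe_sum, SetLike.val_smul] at h
    rw [← h]
    exact sum_congr rfl fun j _ => Rat.smul_def _ _
  have hzero : ∀ c : Fin d → ℚ, ∑ j, (c j : ℝ) * α j = 0 → ∀ j, c j = 0 := fun c hc =>
    Fintype.linearIndependent_iff.1 hli c (by simpa [Rat.smul_def] using hc)
  have hq0 : ∀ i, x i = 0 → ∀ j, q i j = 0 := fun i hi => hzero _ ((hrep i).symm.trans hi)
  have hAq : ∀ k j, ∑ i, (A k i : ℚ) * q i j = 0 := fun k => hzero _ <| by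
    have h := hA k
    simp only [hrep, mul_sum] at h
    rw [sum_comm] at h
    rw [← h]
    refine sum_congr rfl fun j _ => ?_
    push_cast
    rw [sum_mul]
    exact sum_congr rfl fun i _ => by ring
  set O : Set (Fin d → ℝ) :=
    ⋂ i ∈ {i | x i ≠ 0}, {β | 0 < ∑ j, (q i j : ℝ) * β j} with hO
  have hopen : IsOpen O :=
    (Set.toFinite _).isOpen_biInter fun i _ => isOpen_lt continuous_const (by fun_prop)
  have hne : O.Nonempty := ⟨α, by
    simp only [hO, Set.mem_iInter, Set.mem_ofPred_eq]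
    exact fun i hi => (hrep i) ▸ (hx i).lt_of_ne' hi⟩
  obtain ⟨β, hβ⟩ := (DenseRange.piMap fun _ : Fin d => Rat.denseRange_cast).exists_mem_open
    hopen hne
  set y : ι → ℚ := fun i => ∑ j, q i j * β j with hy
  have hy0 : ∀ i, x i = 0 → y i = 0 := fun i hi => by simp [hy, hq0 i hi]
  have hy1 : ∀ i, x i ≠ 0 → 0 < y i := fun i hi => by
    simp only [hO, Set.mem_iInter, Set.mem_ofPred_eq, Pi.map_apply] at hβ
    exact_mod_cast hβ i hi
  have hynn : ∀ i, 0 ≤ y i := fun i => by
    by_cases hi : x i = 0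
    · exact (hy0 i hi).ge
    · exact (hy1 i hi).le
  have hyA : ∀ k, ∑ i, (A k i : ℚ) * y i = 0 := fun k => by
    simp only [hy, mul_sum]
    rw [sum_comm]
    refine sum_eq_zero fun j _ => ?_
    rw [← mul_zero (β j), ← hAq k j, mul_sum]
    exact sum_congr rfl fun i _ => by ring
  set D : ℕ := ∏ i, (y i).den with hD
  refine ⟨fun i => ((y i).num * (D / (y i).den : ℕ)).toNat, fun i => ?_, fun k => ?_⟩
  · have hd : 0 < D / (y i).den := Nat.div_pos (Nat.le_of_dvd (prod_pos fun j _ => (y j).den_pos)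
      (dvd_prod_of_mem _ (mem_univ i))) (y i).den_pos
    constructor
    · intro h
      by_contra hi
      have : 0 < (y i).num * (D / (y i).den : ℕ) :=
        mul_pos (Rat.num_pos.2 (hy1 i hi)) (by exact_mod_cast hd)
      simp only [Int.toNat_eq_zero] at h
      linarith
    · intro h
      simp [hy0 i h]
  · have key : ∀ i, ((((y i).num * (D / (y i).den : ℕ)).toNat : ℤ) : ℚ) = y i * D := fun i => by
      have h0 : 0 ≤ (y i).num * (D / (y i).den : ℕ) :=
        mul_nonneg (Rat.num_nonneg.2 (hynn i)) (Int.natCast_nonneg _)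
      rw [Int.toNat_of_nonneg h0, Int.cast_mul, Int.cast_natCast,
        Nat.cast_div (dvd_prod_of_mem _ (mem_univ i)) (by exact_mod_cast (y i).den_nz)]
      conv_rhs => rw [← Rat.num_div_den (y i)]
      ring
    have h : ((∑ i, A k i * ((((y i).num * (D / (y i).den : ℕ)).toNat : ℕ) : ℤ) : ℤ) : ℚ) = 0 := by
      rw [Int.cast_sum]
      have e := congrArg (fun t => t * (D : ℚ)) (hyA k)
      simp only [zero_mul, sum_mul] at e
      rw [← e]
      refine sum_congr rfl fun i _ => ?_
      rw [Int.cast_mul, key]; ring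
    exact_mod_cast h

/-- Approximate solutions with almost no weight on `bad` give an exact one with none. -/
theorem exists_flow (A : κ → ι → ℤ) (bad : Set ι) (M : Finset ι) {c : ℝ} (hc : 0 < c)
    (h : ∀ ε : ℝ, 0 < ε → ∃ x : ι → ℝ, (∀ i, 0 ≤ x i ∧ x i ≤ 1) ∧
      (∀ k, ∑ i, (A k i : ℝ) * x i = 0) ∧ (∀ i ∈ bad, x i ≤ ε) ∧ c ≤ ∑ i ∈ M, x i) :
    ∃ w : ι → ℕ, (∀ k, ∑ i, A k i * (w i : ℤ) = 0) ∧ (∀ i ∈ bad, w i = 0) ∧
      ∃ i ∈ M, w i ≠ 0 := by
  set box : Set (ι → ℝ) := Set.univ.pi fun _ => Set.Icc 0 1 with hbox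
  set K : ℕ → Set (ι → ℝ) := fun n => box ∩ {x | (∀ k, ∑ i, (A k i : ℝ) * x i = 0) ∧
    (∀ i ∈ bad, x i ≤ 1 / ((n : ℝ) + 1)) ∧ c ≤ ∑ i ∈ M, x i} with hK
  have hcl : ∀ n, IsClosed (K n) := fun n => by
    refine (isClosed_set_pi fun i _ => isClosed_Icc).inter ?_
    simp only [Set.ofPred_and, Set.ofPred_forall]
    exact (isClosed_iInter fun k => isClosed_eq (by fun_prop) continuous_const).inter
      ((isClosed_iInter fun i => isClosed_iInter fun _ =>
        isClosed_le (continuous_apply i) continuous_const).inter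
        (isClosed_le continuous_const (by fun_prop)))
  obtain ⟨x, hx⟩ := IsCompact.nonempty_iInter_of_sequence_nonempty_isCompact_isClosed K
    (fun n => by
      rintro x ⟨hxb, h1, h2, h3⟩
      refine ⟨hxb, h1, fun i hi => (h2 i hi).trans ?_, h3⟩
      push_cast
      gcongr
      linarith)
    (fun n => by
      obtain ⟨x, h0, h1, h2, h3⟩ := h (1 / ((n : ℝ) + 1)) (by positivity)
      exact ⟨x, fun i _ => h0 i, h1, h2, h3⟩)
    ((isCompact_univ_pi fun _ => isCompact_Icc).of_isClosed_subset (hcl 0) Set.inter_subset_left)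
    hcl
  simp only [hK, Set.mem_iInter, Set.mem_inter_iff, hbox, Set.mem_univ_pi, Set.mem_Icc,
    Set.mem_ofPred_eq] at hx
  obtain ⟨w, hw0, hwA⟩ := exists_nat_solution A x (fun i => ((hx 0).1 i).1) (hx 0).2.1
  refine ⟨w, hwA, fun i hi => (hw0 i).2 ?_, ?_⟩
  · refine le_antisymm (le_of_forall_pos_le_add fun ε hε => ?_) ((hx 0).1 i).1
    obtain ⟨n, hn⟩ := exists_nat_one_div_lt hε
    linarith [(hx n).2.2.1 i hi]
  · by_contra hM
    push Not at hM
    have := (hx 0).2.2.2
    rw [sum_eq_zero fun i hi => (hw0 i).1 (hM i hi)] at this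
    linarith

end Vale.Agent.P196.Tree
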