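import Vale.Agent.P196.Tree.Model
import Vale.Agent.P196.Tree.Rational

/-!
# P196: almost invariant sets give exact flows on windows
-/

namespace Vale.Agent.P196.Tree

open Finset
open scoped Classical

variable {n m N k R : ℕ} {G X : Type*} [Group G]

/-- Changing the base point of a colour, as a map on points. -/
theorem shift_injective (v : FG m) :
    Function.Injective fun q : FG m × Fin k => (v * q.1, q.2) := fun p q h => by
  simp only [Prod.mk.injEq, mul_right_inj] at h
  exact Prod.ext h.1 h.2

section Colour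

variable (π : FreeGroup (Fin n) →* G) (ρ : G →* Equiv.Perm X) (lab : X → FG m × Fin k)
  (hdisp : ∀ l x, ((lab x).1⁻¹ * (lab (ρ (π (FreeGroup.mk [l])) x)).1) ∈ ball m N) (L : Finset X)

/-- The colouring cut out by a finite set of points. -/
noncomputable def cut : FG m → Col n m N k := fun v i =>
  if h : ∃ x ∈ L, lab x = (v, i) then
    some fun l => if ρ (π (FreeGroup.mk [l])) h.choose ∈ L then
      some (⟨_, hdisp l h.choose⟩, (lab (ρ (π (FreeGroup.mk [l])) h.choose)).2) else none
  else none

theorem cut_apply (hlab : Function.Injective lab) {x : X} (hx : x ∈ L) :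
    cut π ρ lab hdisp L (lab x).1 (lab x).2 =
      some fun l => if ρ (π (FreeGroup.mk [l])) x ∈ L then
        some (⟨_, hdisp l x⟩, (lab (ρ (π (FreeGroup.mk [l])) x)).2) else none := by
  have h : ∃ y ∈ L, lab y = ((lab x).1, (lab x).2) := ⟨x, hx, rfl⟩
  have e : h.choose = x := hlab h.choose_spec.2
  rw [cut, dif_pos h]
  congr 1
  funext l
  simp only [e]

theorem exists_of_cut {v : FG m} {i : Fin k} (h : (cut π ρ lab hdisp L v i).isSome) :
    ∃ x ∈ L, lab x = (v, i) := by
  by_contra hn
  simp [cut, dif_neg hn] at h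

theorem walk_cut (hlab : Function.Injective lab) {x : X} :
    ∀ w : List (Fin n × Bool), (∀ u ∈ w.tails, ρ (π (FreeGroup.mk u)) x ∈ L) →
      walk (· * ·) (cut π ρ lab hdisp L) w (lab x) =
        some (lab (ρ (π (FreeGroup.mk w)) x)) := by
  intro w
  induction w with
  | nil => intro _; simp [walk, ← FreeGroup.one_eq_mk]
  | cons l w ih =>
    intro h
    simp only [List.tails_cons, List.mem_cons, forall_eq_or_imp] at h
    have hy : ρ (π (FreeGroup.mk w)) x ∈ L := h.2 w (by cases w <;> simp)
    have e : ρ (π (FreeGroup.mk (l :: w))) x =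
        ρ (π (FreeGroup.mk [l])) (ρ (π (FreeGroup.mk w)) x) := by
      rw [show l :: w = [l] ++ w from rfl, ← FreeGroup.mul_mk, map_mul, map_mul,
        Equiv.Perm.mul_apply]
    rw [walk, ih h.2, Option.bind_some, step, cut_apply π ρ lab hdisp L hlab hy,
      Option.bind_some]
    simp only [if_pos (e ▸ h.1), Option.map_some, e]
    simp

end Colour

theorem moved_ne_empty {a : Win n m N k R} (h : Moved a) : a ≠ emptyWin n m N k R := by
  obtain ⟨i, f, l, t, hf, -⟩ := h
  rintro rfl
  simp [centre, emptyWin] at hf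

/-- The unknowns of the flow: windows and labelled pairs of windows. -/
abbrev Idx (n m N k R : ℕ) := Win n m N k R ⊕ Fin m × Win n m N k R × Win n m N k R

/-- The window of a colouring at a vertex. -/
def winAt (c : FG m → Col n m N k) (v : FG m) : Win n m N k R := fun u => c (v * (u : FG m))

/-- The balance equations at the nonempty windows, for both ends of each label. -/
noncomputable def flowEq (e : Fin m × Win n m N k R × Bool) : Idx n m N k R → ℤ := fun i =>
  if e.2.1 = emptyWin n m N k R then 0 else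
    Sum.elim (fun a => if a = e.2.1 then -1 else 0)
      (fun q => if q.1 = e.1 ∧ (if e.2.2 then q.2.1 = e.2.1 else q.2.2 = e.2.1) then 1 else 0) i

theorem flowEq_sum (w : Idx n m N k R → ℕ) (s : Fin m) (a : Win n m N k R) (dir : Bool)
    (ha : a ≠ emptyWin n m N k R) :
    ∑ i, flowEq (s, a, dir) i * (w i : ℤ) =
      ((∑ b, w (Sum.inr (if dir then (s, a, b) else (s, b, a))) : ℕ) : ℤ) - (w (Sum.inl a) : ℤ) := by
  simp only [flowEq, if_neg ha, Fintype.sum_sum_type, Sum.elim_inl, Sum.elim_inr,
    Fintype.sum_prod_type, ite_mul, zero_mul, neg_one_mul, one_mul]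
  rw [sum_ite_eq' univ a]
  simp only [mem_univ, if_true]
  cases dir
  · simp only [Bool.false_eq_true, if_false, ite_and]
    rw [sum_eq_single s (fun t _ ht => by simp [ht]) (by simp)]
    simp only [if_true, sum_ite_eq', mem_univ]
    push_cast; ring
  · simp only [if_true, ite_and]
    rw [sum_eq_single s (fun t _ ht => by simp [ht]) (by simp), sum_comm]
    simp only [if_true, sum_ite_eq', mem_univ]
    push_cast; ring

/-- The vertices that may start a nonempty edge with label `s`. -/
noncomputable def edgeStarts (T : Finset (FG m)) (s : Fin m) : Finset (FG m) :=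
  T ∪ T.image fun v => v * (FreeGroup.of s)⁻¹

/-- The numbers of windows and of edges of each kind. -/
noncomputable def flowCount (c : FG m → Col n m N k) (T : Finset (FG m)) : Idx n m N k R → ℕ :=
  Sum.elim (fun a => if a = emptyWin n m N k R then 0 else (T.filter fun v => winAt c v = a).card)
    (fun q => if q.2.1 = emptyWin n m N k R ∧ q.2.2 = emptyWin n m N k R then 0 else
      ((edgeStarts T q.1).filter fun v =>
        winAt c v = q.2.1 ∧ winAt c (v * FreeGroup.of q.1) = q.2.2).card)

theorem flowCount_le (c : FG m → Col n m N k) (T : Finset (FG m)) (i : Idx n m N k R) :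
    flowCount c T i ≤ 2 * T.card := by
  rcases i with a | q <;> simp only [flowCount, Sum.elim_inl, Sum.elim_inr] <;> split_ifs
  · exact Nat.zero_le _
  · exact (card_filter_le _ _).trans (by omega)
  · exact Nat.zero_le _
  · refine ((card_filter_le _ _).trans (card_union_le _ _)).trans ?_
    exact (Nat.add_le_add_left card_image_le _).trans_eq (by omega)

theorem flowCount_balanced {c : FG m → Col n m N k} {T : Finset (FG m)}
    (hT : ∀ v, winAt (R := R) c v ≠ emptyWin n m N k R → v ∈ T)
    (e : Fin m × Win n m N k R × Bool) : ∑ i, flowEq e i * (flowCount c T i : ℤ) = 0 := by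
  obtain ⟨s, a, dir⟩ := e
  by_cases ha : a = emptyWin n m N k R
  · simp [flowEq, ha]
  rw [flowEq_sum _ s a dir ha, sub_eq_zero, Nat.cast_inj]
  cases dir
  · simp only [flowCount, Sum.elim_inr, Sum.elim_inl, Bool.false_eq_true, if_false, ha, and_false]
    have e1 : (T.filter fun v => winAt c v = a).card =
        ((edgeStarts T s).filter fun v => winAt c (v * FreeGroup.of s) = a).card := by
      refine card_bij' (fun v _ => v * (FreeGroup.of s)⁻¹) (fun v _ => v * FreeGroup.of s)
        (fun v hv => ?_) (fun v hv => ?_) (fun v _ => by simp) (fun v _ => by simp)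
      · simp only [mem_filter] at hv ⊢
        exact ⟨mem_union_right _ (mem_image_of_mem _ hv.1), by simpa using hv.2⟩
      · simp only [mem_filter] at hv ⊢
        exact ⟨hT _ (by rw [hv.2]; exact ha), hv.2⟩
    rw [e1, card_eq_sum_card_fiberwise (f := fun v => winAt (R := R) c v) (t := univ)
      fun v _ => mem_univ _]
    refine sum_congr rfl fun b _ => ?_
    rw [filter_filter]
    congr 1
    exact filter_congr fun v _ => and_comm
  · simp only [flowCount, Sum.elim_inr, Sum.elim_inl, if_true, ha, false_and, if_false]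
    have e1 : T.filter (fun v => winAt c v = a) =
        (edgeStarts T s).filter fun v => winAt c v = a := by
      ext v
      simp only [mem_filter]
      exact ⟨fun h => ⟨mem_union_left _ h.1, h.2⟩,
        fun h => ⟨hT _ (by rw [h.2]; exact ha), h.2⟩⟩
    rw [e1, card_eq_sum_card_fiberwise (f := fun v => winAt (R := R) c (v * FreeGroup.of s))
      (t := univ) fun v _ => mem_univ _]
    exact sum_congr rfl fun b _ => by rw [filter_filter]

theorem flowCount_compat (c : FG m → Col n m N k) (T : Finset (FG m)) {s : Fin m}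
    {a b : Win n m N k R} (h : ¬ Compat s a b) : flowCount c T (Sum.inr (s, a, b)) = 0 := by
  simp only [flowCount, Sum.elim_inr]
  split_ifs
  · rfl
  refine card_eq_zero.2 (filter_eq_empty_iff.2 fun v _ hv => h ?_)
  rw [← hv.1, ← hv.2]
  intro u hu hsu
  simp [winAt, mul_assoc]

theorem winAt_ne_empty (π : FreeGroup (Fin n) →* G) (ρ : G →* Equiv.Perm X)
    (lab : X → FG m × Fin k)
    (hdisp : ∀ l x, ((lab x).1⁻¹ * (lab (ρ (π (FreeGroup.mk [l])) x)).1) ∈ ball m N)
    (L : Finset X) {v : FG m}
    (hv : winAt (R := R) (cut π ρ lab hdisp L) v ≠ emptyWin n m N k R) :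
    v ∈ (L ×ˢ ball m R).image fun q => (lab q.1).1 * q.2⁻¹ := by
  by_contra hn
  refine hv (funext fun u => funext fun i => ?_)
  by_contra hne
  obtain ⟨x, hx, hlx⟩ := exists_of_cut π ρ lab hdisp L
    (v := v * (u : FG m)) (i := i) (Option.isSome_iff_ne_none.2 hne)
  exact hn (mem_image.2 ⟨(x, (u : FG m)), mem_product.2 ⟨hx, u.2⟩, by rw [hlx]; simp⟩)

section Bounds

variable (π : FreeGroup (Fin n) →* G) (ρ : G →* Equiv.Perm X) (lab : X → FG m × Fin k)
  (hlab : Function.Injective lab)
  (hdisp : ∀ l x, ((lab x).1⁻¹ * (lab (ρ (π (FreeGroup.mk [l])) x)).1) ∈ ball m N)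
  (L Bad : Finset X)

include hlab

theorem card_notGood_le (tests : List (List (Fin n × Bool)))
    (htest : ∀ w ∈ tests, π (FreeGroup.mk w) = 1) (hlen : ∀ w ∈ tests, N * w.length ≤ R)
    (hstay : ∀ x ∈ L, x ∉ Bad → ∀ w ∈ tests, ∀ u ∈ w.tails, ρ (π (FreeGroup.mk u)) x ∈ L)
    (T : Finset (FG m)) :
    (T.filter fun v => ¬ Good tests (winAt (R := R) (cut π ρ lab hdisp L) v)).card ≤ Bad.card := by
  refine (card_le_card (t := Bad.image fun x => (lab x).1) fun v hv => ?_).trans card_image_le
  obtain ⟨-, hv⟩ := mem_filter.1 hv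
  simp only [Good, not_forall] at hv
  obtain ⟨i, hi, w, hw, hne⟩ := hv
  have hi' : (cut π ρ lab hdisp L v i).isSome := by simpa [centre, winAt] using hi
  obtain ⟨x, hx, hlx⟩ := exists_of_cut π ρ lab hdisp L hi'
  refine mem_image.2 ⟨x, by_contra fun hnb => hne ?_, by rw [hlx]⟩
  have h1 := walk_shift (act := (· * ·)) (P := FG m) (fun p u u' => mul_assoc p u u')
    (mul_one v) (a := winAt (cut π ρ lab hdisp L) v) (c := cut π ρ lab hdisp L) (fun u => rfl) i w (hlen w hw)
  rw [← hlx, walk_cut π ρ lab hdisp L hlab w (hstay x hx hnb w hw), htest w hw, map_one, Equiv.Perm.one_apply, hlx] at h1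
  refine Option.map_injective (shift_injective v) ?_
  rw [h1]; simp

theorem card_moved_ge (hmove : ∀ x, ∃ l, ρ (π (FreeGroup.mk [l])) x ≠ x)
    (hBad : Bad ⊆ L) (hstay : ∀ x ∈ L, x ∉ Bad → ∀ l, ρ (π (FreeGroup.mk [l])) x ∈ L)
    (T : Finset (FG m))
    (hT : ∀ v, winAt (R := R) (cut π ρ lab hdisp L) v ≠ emptyWin n m N k R → v ∈ T) :
    L.card ≤ Bad.card +
      k * (T.filter fun v => Moved (winAt (R := R) (cut π ρ lab hdisp L) v)).card := by
  have h1 : L.card ≤ Bad.card + (L \ Bad).card := by
    rw [card_sdiff_of_subset hBad]; omega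
  refine h1.trans (Nat.add_le_add_left ?_ _)
  refine card_le_mul_card_image_of_maps_to (f := fun x => (lab x).1)
    (fun x hx => ?_) k (fun v _ => ?_)
  · obtain ⟨hx, hnb⟩ := mem_sdiff.1 hx
    obtain ⟨l, hl⟩ := hmove x
    have hlx : ρ (π (FreeGroup.mk [l])) x ∈ L := hstay x hx hnb l
    have hce : centre (winAt (R := R) (cut π ρ lab hdisp L) (lab x).1) (lab x).2 = some fun l' =>
        if ρ (π (FreeGroup.mk [l'])) x ∈ L then
          some (⟨_, hdisp l' x⟩, (lab (ρ (π (FreeGroup.mk [l'])) x)).2) else none := by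
      simp only [centre, winAt, mul_one]
      exact cut_apply π ρ lab hdisp L hlab hx
    have hm : Moved (winAt (R := R) (cut π ρ lab hdisp L) (lab x).1) := by
      refine ⟨(lab x).2, _, l, (⟨_, hdisp l x⟩, (lab (ρ (π (FreeGroup.mk [l])) x)).2), hce,
        if_pos hlx, ?_⟩
      by_contra hcon
      push Not at hcon
      exact hl (hlab (Prod.ext (inv_mul_eq_one.1 hcon.1).symm hcon.2))
    exact mem_filter.2 ⟨hT _ (moved_ne_empty hm), hm⟩
  · refine (card_le_card_of_injOn (fun x => (lab x).2) (t := univ) (fun _ _ => mem_univ _)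
      fun x hx y hy h => hlab (Prod.ext ?_ h)).trans (by simp)
    simp only [coe_filter, Set.mem_ofPred_eq] at hx hy
    exact hx.2.trans hy.2.symm

end Bounds

/-- Almost invariant sets with moved points give a finite consistent family of windows. -/
theorem exists_consistent (π : FreeGroup (Fin n) →* G) (ρ : G →* Equiv.Perm X)
    (lab : X → FG m × Fin k) (hlab : Function.Injective lab)
    (hdisp : ∀ l x, ((lab x).1⁻¹ * (lab (ρ (π (FreeGroup.mk [l])) x)).1) ∈ ball m N)
    (hmove : ∀ x, ∃ l, ρ (π (FreeGroup.mk [l])) x ≠ x)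
    (tests : List (List (Fin n × Bool))) (htest : ∀ w ∈ tests, π (FreeGroup.mk w) = 1)
    (hlen : ∀ w ∈ tests, N * w.length ≤ R)
    (hF : ∀ (H : Finset G) (ε : ℝ), 0 < ε → ∃ L : Finset X, L.Nonempty ∧
      ((L.filter fun x => ∃ h ∈ H, ρ h x ∉ L).card : ℝ) ≤ ε * L.card) :
    ∃ (V : Type) (_ : Fintype V) (e : Fin m → Equiv.Perm V) (τ : V → Win n m N k R),
      (∀ s v, Compat s (τ v) (τ (e s v))) ∧ (∀ v, Good tests (τ v)) ∧ ∃ v, Moved (τ v) := by
  set H : Finset G := ((tests.flatMap List.tails).toFinset.image fun u => π (FreeGroup.mk u)) ∪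
    (univ.image fun l : Fin n × Bool => π (FreeGroup.mk [l])) with hH
  set bad : Set (Idx n m N k R) :=
    {i | Sum.elim (fun a => ¬ Good tests a) (fun q => ¬ Compat q.1 q.2.1 q.2.2) i} with hbad
  set M : Finset (Idx n m N k R) :=
    (univ.filter fun a : Win n m N k R => Moved a).image Sum.inl with hM
  set B : ℕ := (ball m R).card with hB
  have hB1 : (1 : ℝ) ≤ B := by exact_mod_cast card_pos.2 ⟨(1 : FG m), one_mem_ball⟩
  obtain ⟨w, hwA, hwbad, i₀, hi₀, hwi₀⟩ := exists_flow flowEq bad M
    (c := 1 / (4 * B * (k + 1))) (by positivity) (fun ε hε => by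
    obtain ⟨L, hL, hLbad⟩ := hF H (min ε (1 / 2)) (lt_min hε (by norm_num))
    set c := cut π ρ lab hdisp L with hc
    set T : Finset (FG m) := (L ×ˢ ball m R).image fun q => (lab q.1).1 * q.2⁻¹ with hT
    set Bad := L.filter fun x => ∃ h ∈ H, ρ h x ∉ L with hBad
    have hLc : (0 : ℝ) < L.card := by exact_mod_cast hL.card_pos
    have hTc : (T.card : ℝ) ≤ L.card * B := by
      have h : T.card ≤ L.card * B := card_image_le.trans (card_product L (ball m R)).le
      exact_mod_cast h
    have hZ : (0 : ℝ) < 2 * B * L.card := by positivity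
    have hstay : ∀ x ∈ L, x ∉ Bad → ∀ h ∈ H, ρ h x ∈ L := fun x hx hnb h hh => by
      by_contra hn
      exact hnb (mem_filter.2 ⟨hx, h, hh, hn⟩)
    have hng := card_notGood_le π ρ lab hlab hdisp L Bad tests htest hlen
      (fun x hx hnb w hw u hu => hstay x hx hnb _ (mem_union_left _ (mem_image_of_mem _
        (List.mem_toFinset.2 (List.mem_flatMap.2 ⟨w, hw, hu⟩))))) T
    have hmv := card_moved_ge (R := R) π ρ lab hlab hdisp L Bad hmove (filter_subset _ _)
      (fun x hx hnb l => hstay x hx hnb _ (mem_union_right _ (mem_image_of_mem _ (mem_univ l)))) T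
      (fun v hv => winAt_ne_empty π ρ lab hdisp L hv)
    refine ⟨fun i => (flowCount c T i : ℝ) / (2 * B * L.card),
      fun i => ⟨div_nonneg (Nat.cast_nonneg _) hZ.le, (div_le_one hZ).2 ?_⟩, fun e => ?_, ?_, ?_⟩
    · have h1 : (flowCount c T i : ℝ) ≤ 2 * T.card := by exact_mod_cast flowCount_le c T i
      linarith
    · simp only [← mul_div_assoc, ← sum_div]
      rw [div_eq_zero_iff]; left
      exact_mod_cast flowCount_balanced (fun v hv => winAt_ne_empty π ρ lab hdisp L hv) e
    · intro i hi
      rw [div_le_iff₀ hZ]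
      rcases i with a | ⟨s, a, b⟩
      · have h1 : (flowCount c T (Sum.inl a) : ℝ) ≤ Bad.card := by
          simp only [flowCount, Sum.elim_inl, Nat.cast_le]
          split_ifs with ha
          · exact Nat.zero_le _
          · refine (card_le_card fun v hv => ?_).trans hng
            rw [mem_filter] at hv ⊢
            exact ⟨hv.1, hv.2 ▸ hi⟩
        have h2 : (Bad.card : ℝ) ≤ ε * L.card :=
          hLbad.trans (mul_le_mul_of_nonneg_right (min_le_left _ _) hLc.le)
        have h3 : ε * (1 * L.card) ≤ ε * (2 * B * L.card) := by gcongr; linarith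
        linarith
      · rw [flowCount_compat c T hi, Nat.cast_zero]; positivity
    · have h1 : (L.card : ℝ) ≤ Bad.card + k * ((T.filter fun v => Moved (winAt (R := R) c v)).card : ℝ) := by
        exact_mod_cast hmv
      have h2 : ((T.filter fun v => Moved (winAt (R := R) c v)).card : ℝ) =
          ∑ i ∈ M, (flowCount c T i : ℝ) := by
        rw [hM, sum_image Sum.inl_injective.injOn, ← Nat.cast_sum, Nat.cast_inj,
          card_eq_sum_card_fiberwise (f := fun v => winAt (R := R) c v)
            (t := univ.filter fun a => Moved a)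
            fun v hv => mem_filter.2 ⟨mem_univ _, (mem_filter.1 hv).2⟩]
        refine sum_congr rfl fun a ha => ?_
        have ha' := (mem_filter.1 ha).2
        simp only [flowCount, Sum.elim_inl, if_neg (moved_ne_empty ha'), filter_filter]
        congr 1
        exact filter_congr fun v _ => ⟨fun h => h.2, fun h => ⟨h ▸ ha', h⟩⟩
      have h3 : (Bad.card : ℝ) ≤ 1 / 2 * L.card :=
        hLbad.trans (mul_le_mul_of_nonneg_right (min_le_right _ _) hLc.le)
      rw [← sum_div, le_div_iff₀ hZ, ← h2]
      rw [show 1 / (4 * (B : ℝ) * ((k : ℝ) + 1)) * (2 * B * L.card) = L.card / (2 * ((k : ℝ) + 1)) by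
        field_simp; ring, div_le_iff₀ (by positivity)]
      nlinarith [Nat.cast_nonneg (α := ℝ) (T.filter fun v => Moved (winAt (R := R) c v)).card])
  rw [hM, mem_image] at hi₀
  obtain ⟨a₀, ha₀, rfl⟩ := hi₀
  have hrow : ∀ (s : Fin m) (a : Win n m N k R) (dir : Bool), a ≠ emptyWin n m N k R →
      ∑ b, w (Sum.inr (if dir then (s, a, b) else (s, b, a))) = w (Sum.inl a) := by
    intro s a dir ha
    have h := hwA (s, a, dir)
    rw [flowEq_sum w s a dir ha, sub_eq_zero, Nat.cast_inj] at h
    exact h
  exact exists_model (fun a => w (Sum.inl a)) (fun s a b => w (Sum.inr (s, a, b)))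
    (fun s a ha => by simpa using hrow s a true ha)
    (fun s b hb => by simpa using hrow s b false hb)
    (fun s a b h => hwbad _ (by simpa [hbad] using h)) (Good tests)
    (fun a h => hwbad _ (by simpa [hbad] using h)) (good_empty tests) Moved
    (fun _ h => moved_ne_empty h) ⟨a₀, (mem_filter.1 ha₀).2, hwi₀⟩

end Vale.Agent.P196.Tree
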