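import Mathlib

/-!
# P196: Følner sets on an orbit of an amenable group
-/

namespace Vale.Agent.P196.Tree

open Finset
open scoped Classical

/-- Følner sets of the group push down to almost invariant subsets of every orbit. -/
theorem exists_orbit_set {G X : Type*} [Group G]
    (hG : ∀ (K : Finset G) (ε : ℝ), 0 < ε → ∃ D : Finset G, D.Nonempty ∧
      ∀ g ∈ K, ((symmDiff (D.image (g * ·)) D).card : ℝ) < ε * D.card)
    (ρ : G →* Equiv.Perm X) (x₀ : X) (H : Finset G) {ε : ℝ} (hε : 0 < ε) :
    ∃ L : Finset X, L.Nonempty ∧ (∀ x ∈ L, ∃ g, ρ g x₀ = x) ∧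
      ((L.filter fun x => ∃ h ∈ H, ρ h x ∉ L).card : ℝ) ≤ ε * L.card := by
  obtain ⟨D, hD, hK⟩ := hG H (ε / (H.card + 1)) (by positivity)
  set O := D.image fun g => ρ g x₀ with hO
  set f : X → ℕ := fun x => (D.filter fun g => ρ g x₀ = x).card with hf
  set lev : ℕ → Finset X := fun t => O.filter fun x => t < f x with hlev
  have hmem : ∀ t x, t < f x → x ∈ lev t := fun t x h => by
    refine mem_filter.2 ⟨?_, h⟩
    obtain ⟨g, hg⟩ := card_pos.1 (lt_of_le_of_lt (Nat.zero_le t) h)
    exact mem_image.2 ⟨g, (mem_filter.1 hg).1, (mem_filter.1 hg).2⟩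
  have hcount : ∑ x ∈ O, f x = D.card :=
    (card_eq_sum_card_fiberwise fun g hg => mem_image_of_mem _ hg).symm
  have hfD : ∀ x, f x ≤ D.card := fun x => card_filter_le _ _
  have hlevels : ∑ t ∈ range D.card, (lev t).card = D.card := by
    conv_rhs => rw [← hcount]
    simp only [hlev, card_filter]
    rw [sum_comm]
    refine sum_congr rfl fun x _ => ?_
    rw [← card_filter, show (range D.card).filter (fun t => t < f x) = range (f x) by
      ext t; simp only [mem_filter, mem_range]; have := hfD x; omega, card_range]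
  have hlose : ∀ h : G, ∑ t ∈ range D.card, ((lev t).filter fun x => ρ h x ∉ lev t).card ≤
      (D.filter fun g => h * g ∉ D).card := by
    intro h
    calc ∑ t ∈ range D.card, ((lev t).filter fun x => ρ h x ∉ lev t).card
        ≤ ∑ t ∈ range D.card, (O.filter fun x => f (ρ h x) ≤ t ∧ t < f x).card := by
          refine sum_le_sum fun t _ => card_le_card fun x hx => ?_
          simp only [mem_filter] at hx
          exact mem_filter.2 ⟨(mem_filter.1 hx.1).1,
            not_lt.1 fun hlt => hx.2 (hmem t _ hlt), (mem_filter.1 hx.1).2⟩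
      _ = ∑ x ∈ O, ((range D.card).filter fun t => f (ρ h x) ≤ t ∧ t < f x).card := by
          simp only [card_filter]; rw [sum_comm]
      _ ≤ ∑ x ∈ O, ((D.filter fun g => h * g ∉ D).filter fun g => ρ g x₀ = x).card := by
          refine sum_le_sum fun x _ => ?_
          refine (card_le_card (t := Ico (f (ρ h x)) (f x)) fun t ht => ?_).trans ?_
          · simp only [mem_filter] at ht; exact mem_Ico.2 ht.2
          rw [Nat.card_Ico, Nat.sub_le_iff_le_add]
          have hstay : ((D.filter fun g => h * g ∈ D).filter fun g => ρ g x₀ = x).card ≤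
              f (ρ h x) := by
            refine card_le_card_of_injOn (h * ·) (fun g hg => ?_) (mul_right_injective h).injOn
            simp only [coe_filter, mem_filter, Set.mem_ofPred_eq] at hg ⊢
            exact ⟨hg.1.2, by rw [map_mul, Equiv.Perm.mul_apply, hg.2]⟩
          have hsplit : f x = ((D.filter fun g => h * g ∈ D).filter fun g => ρ g x₀ = x).card +
              ((D.filter fun g => h * g ∉ D).filter fun g => ρ g x₀ = x).card := by
            rw [filter_comm (fun g => h * g ∈ D), filter_comm (fun g => h * g ∉ D),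
              card_filter_add_card_filter_not]
          omega
      _ = _ := (card_eq_sum_card_fiberwise fun g hg => mem_image_of_mem _ (mem_filter.1 hg).1).symm
  have htot : ∑ t ∈ range D.card, (((lev t).filter fun x => ∃ h ∈ H, ρ h x ∉ lev t).card : ℝ) ≤
      ε * ∑ t ∈ range D.card, ((lev t).card : ℝ) := by
    calc _ ≤ ∑ t ∈ range D.card, ∑ h ∈ H, (((lev t).filter fun x => ρ h x ∉ lev t).card : ℝ) := by
          refine sum_le_sum fun t _ => ?_
          rw [← Nat.cast_sum, Nat.cast_le]
          refine le_trans (card_le_card fun x hx => ?_) card_biUnion_le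
          obtain ⟨hx, h, hh, hn⟩ := mem_filter.1 hx
          exact mem_biUnion.2 ⟨h, hh, mem_filter.2 ⟨hx, hn⟩⟩
      _ = ∑ h ∈ H, ∑ t ∈ range D.card, (((lev t).filter fun x => ρ h x ∉ lev t).card : ℝ) :=
          sum_comm
      _ ≤ ∑ h ∈ H, ε / (H.card + 1) * D.card := by
          refine sum_le_sum fun h hh => ?_
          refine le_trans ?_ (hK h hh).le
          rw [← Nat.cast_sum, Nat.cast_le]
          refine (hlose h).trans (card_le_card_of_injOn (h * ·) (fun g hg => ?_)
            (mul_right_injective h).injOn)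
          simp only [coe_filter, Set.mem_ofPred_eq] at hg
          exact Finset.mem_symmDiff.2 (Or.inl ⟨mem_image_of_mem _ hg.1, hg.2⟩)
      _ ≤ ε * D.card := by
          rw [sum_const, nsmul_eq_mul, ← mul_assoc]
          refine mul_le_mul_of_nonneg_right ?_ (Nat.cast_nonneg _)
          rw [← mul_div_assoc, div_le_iff₀ (by positivity)]
          nlinarith
      _ = _ := by rw [← Nat.cast_sum, hlevels]
  by_contra hcon
  push Not at hcon
  obtain ⟨t, ht, htne⟩ : ∃ t ∈ range D.card, (lev t).Nonempty := by
    by_contra hall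
    push Not at hall
    rw [sum_eq_zero fun t ht => by rw [hall t ht, card_empty]] at hlevels
    exact hD.card_pos.ne hlevels
  refine absurd htot (not_le.2 ?_)
  rw [mul_sum]
  have horb : ∀ s, ∀ x ∈ lev s, ∃ g, ρ g x₀ = x := fun s x hx => by
    obtain ⟨g, -, rfl⟩ := mem_image.1 (mem_filter.1 hx).1
    exact ⟨g, rfl⟩
  refine sum_lt_sum (fun s _ => ?_) ⟨t, ht, hcon _ htne (horb t)⟩
  rcases (lev s).eq_empty_or_nonempty with h | h
  · simp [h]
  · exact (hcon _ h (horb s)).le

end Vale.Agent.P196.Tree
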