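import Mathlib

/-!
# P196: windows of a colouring of a free group

A colour records, for each of `k` slots, the displacements of the letters at the point in that
slot. Windows are the colours seen within distance `R` of a vertex.
-/

namespace Vale.Agent.P196.Tree

open scoped Classical

/-- The free group of rank `m`. -/
abbrev FG (m : ℕ) := FreeGroup (Fin m)

/-- The elements of reduced length at most `R`. -/
noncomputable def ball (m R : ℕ) : Finset (FG m) :=
  ((List.finite_length_le (Fin m × Bool) R).toFinset).image FreeGroup.mk

theorem norm_mk_le {m : ℕ} (L : List (Fin m × Bool)) :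
    (FreeGroup.mk L).norm ≤ L.length := by
  rw [FreeGroup.norm, FreeGroup.toWord_mk]
  exact FreeGroup.reduce.red.sublist.length_le

theorem mem_ball {m R : ℕ} {u : FG m} : u ∈ ball m R ↔ u.norm ≤ R := by
  simp only [ball, Finset.mem_image, Set.Finite.mem_toFinset, Set.mem_ofPred_eq]
  constructor
  · rintro ⟨L, hL, rfl⟩
    exact (norm_mk_le L).trans hL
  · exact fun h => ⟨u.toWord, h, FreeGroup.mk_toWord⟩

theorem one_mem_ball {m R : ℕ} : (1 : FG m) ∈ ball m R := mem_ball.2 (by simp)

/-- The colours. -/
abbrev Col (n m N k : ℕ) :=
  Fin k → Option (Fin n × Bool → Option (↥(ball m N) × Fin k))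

/-- The windows. -/
abbrev Win (n m N k R : ℕ) := ↥(ball m R) → Col n m N k

variable {n m N k R : ℕ} {P : Type*}

/-- The colour at the centre. -/
noncomputable def centre (a : Win n m N k R) : Col n m N k := a ⟨1, one_mem_ball⟩

/-- A window, empty outside the ball. -/
noncomputable def extend (a : Win n m N k R) (u : FG m) : Col n m N k :=
  if h : u ∈ ball m R then a ⟨u, h⟩ else fun _ => none

theorem extend_of_mem (a : Win n m N k R) {u : FG m} (h : u ∈ ball m R) :
    extend a u = a ⟨u, h⟩ := dif_pos h

noncomputable instance winFintype (n m N k R : ℕ) : Fintype (Win n m N k R) :=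
  @Pi.instFintype _ _ _ _ fun _ => inferInstance

/-- The empty window. -/
def emptyWin (n m N k R : ℕ) : Win n m N k R := fun _ _ => none

/-- One letter, read in a colouring of a right `FG m`-set. -/
def step (act : P → FG m → P) (c : P → Col n m N k) (l : Fin n × Bool) (p : P × Fin k) :
    Option (P × Fin k) :=
  (c p.1 p.2).bind fun f => (f l).map fun t => (act p.1 (t.1 : FG m), t.2)

/-- A word, read from its last letter. -/
def walk (act : P → FG m → P) (c : P → Col n m N k) :
    List (Fin n × Bool) → P × Fin k → Option (P × Fin k)
  | [], p => some p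
  | l :: w, p => (walk act c w p).bind (step act c l)

theorem walk_norm {c : FG m → Col n m N k} :
    ∀ (w : List (Fin n × Bool)) (p q : FG m × Fin k),
      walk (· * ·) c w p = some q → q.1.norm ≤ p.1.norm + N * w.length := by
  intro w
  induction w with
  | nil => intro p q h; simp only [walk, Option.some.injEq] at h; simp [h]
  | cons l w ih =>
    intro p q h
    simp only [walk, Option.bind_eq_some_iff, step, Option.map_eq_some_iff] at h
    obtain ⟨r, hr, f, -, t, -, rfl⟩ := h
    have h1 := ih p r hr
    have h2 := FreeGroup.norm_mul_le r.1 (t.1 : FG m)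
    have h3 := mem_ball.1 t.1.2
    simp only [List.length_cons, Nat.mul_add, mul_one]
    omega

/-- Short walks see only the window. -/
theorem walk_shift {act : P → FG m → P} (hact : ∀ p u u', act (act p u) u' = act p (u * u'))
    {a : Win n m N k R} {c : P → Col n m N k} {v : P} (hv : act v 1 = v)
    (h : ∀ u : ↥(ball m R), a u = c (act v u)) (i : Fin k) :
    ∀ w : List (Fin n × Bool), N * w.length ≤ R →
      (walk (· * ·) (extend a) w (1, i)).map (fun q => (act v q.1, q.2)) =
        walk act c w (v, i) := by
  intro w
  induction w with
  | nil => intro _; simp [walk, hv]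
  | cons l w ih =>
    intro hw
    simp only [List.length_cons, Nat.mul_add, mul_one] at hw
    simp only [walk]
    rw [← ih (by omega)]
    cases hq : walk (· * ·) (extend a) w (1, i) with
    | none => simp
    | some q =>
      have hn := walk_norm w _ _ hq
      simp only [FreeGroup.norm_one, zero_add] at hn
      have hmem : q.1 ∈ ball m R := mem_ball.2 (by omega)
      simp only [Option.bind_some, Option.map_some, step, extend_of_mem a hmem, h ⟨q.1, hmem⟩]
      cases c (act v q.1) q.2 with
      | none => simp
      | some f =>
        simp only [Option.bind_some, Option.map_map]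
        congr 1
        funext t
        simp [hact]

/-- Every point at the centre returns along every test word. -/
def Good (tests : List (List (Fin n × Bool))) (a : Win n m N k R) : Prop :=
  ∀ i, (centre a i).isSome → ∀ w ∈ tests, walk (· * ·) (extend a) w (1, i) = some (1, i)

/-- Some point at the centre is moved by some letter. -/
def Moved (a : Win n m N k R) : Prop :=
  ∃ i f l, ∃ t : ↥(ball m N) × Fin k,
    centre a i = some f ∧ f l = some t ∧ ((t.1 : FG m) ≠ 1 ∨ t.2 ≠ i)

/-- Two windows that overlap consistently along an edge labelled `s`. -/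
def Compat (s : Fin m) (a b : Win n m N k R) : Prop :=
  ∀ (u : FG m) (hu : u ∈ ball m R) (hsu : FreeGroup.of s * u ∈ ball m R),
    a ⟨_, hsu⟩ = b ⟨u, hu⟩

theorem good_empty (tests : List (List (Fin n × Bool))) : Good tests (emptyWin n m N k R) :=
  fun i h => by simp [centre, emptyWin] at h

end Vale.Agent.P196.Tree
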