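import Vale.Agent.P196.Core
import Vale.Agent.P196.Tree.Count
import Vale.Agent.P196.Tree.Folner

/-!
# P196: amenable finitely presented groups do not act along trees
-/

namespace Vale.Agent.P196.Tree

open scoped Classical

variable {G : Type*} [Group G]

/-- The main statement: bounded displacement along a bounded-to-one map to a free group. -/
theorem treelike_trivial [Group.IsFinitelyPresented G]
    (hG : ∀ H : Subgroup G, H.FiniteIndex → H = ⊤)
    (hA : ∀ (K : Finset G) (ε : ℝ), 0 < ε → ∃ D : Finset G, D.Nonempty ∧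
      ∀ g ∈ K, ((symmDiff (D.image (g * ·)) D).card : ℝ) < ε * D.card)
    {X : Type*} (ρ : G →* Equiv.Perm X) {m k : ℕ} (pos : X → FreeGroup (Fin m))
    (hfib : ∀ v, {x | pos x = v}.encard ≤ k)
    (hdisp : ∀ g, ∃ N : ℕ, ∀ x, ((pos x)⁻¹ * pos (ρ g x)).norm ≤ N) : ρ = 1 := by
  by_contra hne
  obtain ⟨g₀, x₀, hmoved⟩ : ∃ g x, ρ g x ≠ x := by
    by_contra hall
    push Not at hall
    exact hne (MonoidHom.ext fun g => Equiv.ext fun x => hall g x)
  obtain ⟨n, π, hπ, S, hS, hSπ⟩ := Group.IsFinitelyPresented.out (G := G)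
  let O : Set X := Set.range fun g => ρ g x₀
  have hinv : ∀ g : G, ∀ y ∈ O, ρ g y ∈ O := by
    rintro g _ ⟨h, rfl⟩
    exact ⟨g * h, by simp [map_mul]⟩
  let σ : G →* Equiv.Perm O :=
    MonoidHom.mk' (fun g => ⟨fun y => ⟨ρ g y, hinv g y y.2⟩, fun y => ⟨ρ g⁻¹ y, hinv g⁻¹ y y.2⟩,
      fun y => Subtype.ext (by simp), fun y => Subtype.ext (by simp)⟩)
      fun g h => Equiv.ext fun y => Subtype.ext (by simp)
  have hfinite : ∀ v, {x | pos x = v}.Finite := fun v =>
    Set.finite_of_encard_le_coe (hfib v)
  have hemb : ∀ v, Nonempty ({x | pos x = v} ↪ Fin k) := fun v => by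
    have := (hfinite v).fintype
    refine Function.Embedding.nonempty_of_card_le ?_
    rw [Fintype.card_fin]
    have h := hfib v
    rw [Set.encard_eq_coe_toFinset_card, Set.toFinset_card] at h
    exact_mod_cast h
  let emb := fun v => (hemb v).some
  let lab : O → FG m × Fin k := fun y => (pos y, emb _ ⟨(y : X), rfl⟩)
  have hlab : Function.Injective lab := fun y z h => by
    simp only [lab, Prod.mk.injEq] at h
    obtain ⟨h1, h2⟩ := h
    have key : ∀ (v w : FG m) (a : {x | pos x = v}) (b : {x | pos x = w}),
        v = w → emb v a = emb w b → (a : X) = b := by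
      rintro v w a b rfl e
      exact congrArg Subtype.val ((emb v).injective e)
    exact Subtype.ext (key _ _ _ _ h1 h2)
  choose Ng hNg using hdisp
  let N : ℕ := ∑ l : Fin n × Bool, Ng (π (FreeGroup.mk [l]))
  have hd : ∀ l y, ((lab y).1⁻¹ * (lab (σ (π (FreeGroup.mk [l])) y)).1) ∈ ball m N := fun l y => by
    refine mem_ball.2 ((hNg _ (y : X)).trans ?_)
    exact Finset.single_le_sum (f := fun l : Fin n × Bool => Ng (π (FreeGroup.mk [l])))
      (fun _ _ => Nat.zero_le _) (Finset.mem_univ l)
  let tests : List (List (Fin n × Bool)) :=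
    hS.toFinset.toList.map FreeGroup.toWord ++
      ((Finset.univ : Finset (Fin n × Bool)).toList.map fun p => [(p.1, !p.2), (p.1, p.2)])
  have hrel : ∀ s ∈ S, s.toWord ∈ tests := fun s hs =>
    List.mem_append_left _ (List.mem_map.2 ⟨s, by simpa using hs, rfl⟩)
  have hpair : ∀ i b, [(i, !b), (i, b)] ∈ tests := fun i b =>
    List.mem_append_right _ (List.mem_map.2 ⟨(i, b), by simp, rfl⟩)
  have htest : ∀ w ∈ tests, π (FreeGroup.mk w) = 1 := by
    intro w hw
    rcases List.mem_append.1 hw with h | h
    · obtain ⟨s, hs, rfl⟩ := List.mem_map.1 h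
      rw [FreeGroup.mk_toWord]
      have : s ∈ π.ker := hSπ ▸ Subgroup.subset_normalClosure (by simpa using hs)
      exact this
    · obtain ⟨⟨i, b⟩, -, rfl⟩ := List.mem_map.1 h
      have h1 : FreeGroup.mk [(i, !b), (i, b)]
          = (FreeGroup.mk [(i, b)])⁻¹ * FreeGroup.mk [(i, b)] := by
        rw [FreeGroup.inv_mk, FreeGroup.mul_mk]
        simp [FreeGroup.invRev]
      rw [h1, inv_mul_cancel, map_one]
  let R : ℕ := N * (tests.map List.length).sum
  have hlen : ∀ w ∈ tests, N * w.length ≤ R := fun w hw =>
    Nat.mul_le_mul_left _ (List.le_sum_of_mem (List.mem_map_of_mem hw))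
  have hmove : ∀ y, ∃ l, σ (π (FreeGroup.mk [l])) y ≠ y := by
    intro y
    by_contra hall
    push Not at hall
    have hfix : ∀ u, σ (π u) y = y := by
      intro u
      rw [← FreeGroup.mk_toWord (x := u)]
      generalize u.toWord = w
      induction w with
      | nil => simp [← FreeGroup.one_eq_mk]
      | cons l w ih =>
        rw [show l :: w = [l] ++ w from rfl, ← FreeGroup.mul_mk, map_mul, map_mul,
          Equiv.Perm.mul_apply, ih, hall l]
    obtain ⟨h, hh⟩ := y.2
    have e : ∀ g, ρ g (y : X) = y := fun g => by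
      obtain ⟨u, rfl⟩ := hπ g
      exact congrArg Subtype.val (hfix u)
    have e0 : x₀ = y := by
      rw [← e h⁻¹, ← hh]
      simp
    exact hmoved (e0 ▸ e g₀)
  obtain ⟨V, _, e, τ, hc, hgood, hmv⟩ := exists_consistent π σ lab hlab hd hmove tests htest hlen
    fun H ε hε => by
      obtain ⟨L, hL, -, hbad⟩ := exists_orbit_set hA σ ⟨x₀, 1, by simp⟩ H hε
      exact ⟨L, hL, hbad⟩
  obtain ⟨Y, _, f, hf⟩ := exists_action hπ hSπ tests hrel hpair hlen e τ hc hgood hmv
  exact hf (hom_finite_eq_one hG f)

/-- No faithful action along a free action of a free group, one orbit at a time. -/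
theorem free_full_group_trivial [Group.IsFinitelyPresented G]
    (hG : ∀ H : Subgroup G, H.FiniteIndex → H = ⊤)
    (hA : ∀ (K : Finset G) (ε : ℝ), 0 < ε → ∃ D : Finset G, D.Nonempty ∧
      ∀ g ∈ K, ((symmDiff (D.image (g * ·)) D).card : ℝ) < ε * D.card)
    {X : Type*} {m : ℕ} (α : FreeGroup (Fin m) →* Equiv.Perm X)
    (hfree : ∀ u x, α u x = x → u = 1) (ρ : G →* Equiv.Perm X)
    (hρ : ∀ g, ∃ K : Finset (FreeGroup (Fin m)), ∀ x, ∃ u ∈ K, ρ g x = α u x) : ρ = 1 := by
  refine MonoidHom.ext fun g => Equiv.ext fun x₀ => ?_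
  let O : Set X := Set.range fun u => α u x₀
  have hinv : ∀ h : G, ∀ y ∈ O, ρ h y ∈ O := by
    rintro h _ ⟨u, rfl⟩
    obtain ⟨K, hK⟩ := hρ h
    obtain ⟨d, -, hd⟩ := hK (α u x₀)
    exact ⟨d * u, by rw [hd]; simp [map_mul]⟩
  let σ : G →* Equiv.Perm O :=
    MonoidHom.mk' (fun g => ⟨fun y => ⟨ρ g y, hinv g y y.2⟩, fun y => ⟨ρ g⁻¹ y, hinv g⁻¹ y y.2⟩,
      fun y => Subtype.ext (by simp), fun y => Subtype.ext (by simp)⟩)
      fun g h => Equiv.ext fun y => Subtype.ext (by simp)
  choose co hco using fun y : O => y.2
  have huniq : ∀ u v, α u x₀ = α v x₀ → u = v := fun u v h => by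
    refine (inv_mul_eq_one.1 (hfree (v⁻¹ * u) x₀ ?_)).symm
    rw [map_mul, Equiv.Perm.mul_apply, h, ← Equiv.Perm.mul_apply, ← map_mul, inv_mul_cancel,
      map_one, Equiv.Perm.one_apply]
  have h1 : σ = 1 := treelike_trivial hG hA σ (fun y => (co y)⁻¹) (k := 1)
    (fun v => Set.encard_le_one_iff.2 fun a b ha hb => Subtype.ext (by
      simp only [Set.mem_ofPred_eq] at ha hb
      rw [← hco a, ← hco b, inv_inj.1 (ha.trans hb.symm)]))
    fun h => by
      obtain ⟨K, hK⟩ := hρ h
      refine ⟨K.sup fun u => u.norm, fun y => ?_⟩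
      obtain ⟨d, hd, hde⟩ := hK (y : X)
      have : co (σ h y) = d * co y := huniq _ _ (by
        have hval : α (co (σ h y)) x₀ = ρ h (y : X) := hco (σ h y)
        rw [hval, hde, map_mul, Equiv.Perm.mul_apply, show α (co y) x₀ = (y : X) from hco y])
      simp only [this, mul_inv_rev, inv_inv, mul_inv_cancel_left, FreeGroup.norm_inv_eq]
      exact Finset.le_sup (f := fun u : FreeGroup (Fin m) => u.norm) hd
  exact congrArg Subtype.val
    (congrArg (fun e : Equiv.Perm O => e ⟨x₀, 1, by simp⟩) (DFunLike.congr_fun h1 g))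

/-- Positive words are reduced. -/
theorem mk_positive_injective {m : ℕ} (a b : List (Fin m))
    (h : FreeGroup.mk (a.map fun i => (i, true)) = FreeGroup.mk (b.map fun i => (i, true))) :
    a = b := by
  have hred : ∀ c : List (Fin m), FreeGroup.reduce (c.map fun i => (i, true)) =
      c.map fun i => (i, true) := by
    intro c
    induction c with
    | nil => rfl
    | cons i c ih =>
      simp only [List.map_cons, FreeGroup.reduce.cons, ih]
      cases c <;> simp
  have h' := congrArg FreeGroup.toWord h
  rw [FreeGroup.toWord_mk, FreeGroup.toWord_mk, hred, hred] at h'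
  exact List.map_injective_iff.2 (fun i j e => by simpa using e) h'

/-- A tree of bounded degree maps injectively into a free group without stretching edges. -/
theorem exists_tree_code {V : Type*} (T : SimpleGraph V) (hT : T.IsTree) {m : ℕ}
    (hdeg : ∀ v, (T.neighborSet v).encard ≤ m) :
    ∃ code : V → FreeGroup (Fin m), Function.Injective code ∧
      ∀ u v, ((code u)⁻¹ * code v).norm ≤ T.dist u v := by
  obtain ⟨r⟩ := hT.connected.nonempty
  have hpath : ∀ v (p : T.Walk r v), p.IsPath → p.length = T.dist r v := fun v p hp => by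
    obtain ⟨q, hq, hl⟩ := hT.connected.exists_path_of_dist r v
    rw [← hl, (hT.existsUnique_path r v).unique hp hq]
  have hparent : ∀ v, v ≠ r → ∃ u, T.Adj u v ∧ T.dist r u + 1 = T.dist r v := by
    intro v hv
    obtain ⟨q, hq, hl⟩ := hT.connected.exists_path_of_dist r v
    obtain ⟨w, h, q', e⟩ := SimpleGraph.Walk.exists_eq_cons_of_ne hv q.reverse
    refine ⟨w, h.symm, ?_⟩
    have hq' : q'.reverse.IsPath := by
      have := hq.reverse
      rw [e, SimpleGraph.Walk.cons_isPath_iff] at this
      exact this.1.reverse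
    have := congrArg SimpleGraph.Walk.length e
    rw [SimpleGraph.Walk.length_reverse, SimpleGraph.Walk.length_cons, hl] at this
    rw [← hpath w _ hq', SimpleGraph.Walk.length_reverse, this]
  have hchild : ∀ u v, T.Adj u v → T.dist r u ≤ T.dist r v → T.dist r v = T.dist r u + 1 := by
    intro u v h hle
    obtain ⟨q, hq, hl⟩ := hT.connected.exists_path_of_dist r u
    by_cases hm : v ∈ q.support
    · have hlt : T.dist r v < T.dist r u := by
        have hne : v ≠ u := h.ne.symm
        have h1 := hpath v _ (hq.takeUntil hm)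
        have h2 := congrArg SimpleGraph.Walk.length (q.take_spec hm)
        rw [SimpleGraph.Walk.length_append] at h2
        have h3 : 0 < (q.dropUntil v hm).length :=
          Nat.pos_of_ne_zero fun h0 => hne (SimpleGraph.Walk.eq_of_length_eq_zero h0)
        omega
      omega
    · rw [← hpath v _ (hq.concat hm h), SimpleGraph.Walk.length_concat, hl]
  have huniq : ∀ u u' v, T.Adj u v → T.dist r u + 1 = T.dist r v → T.Adj u' v →
      T.dist r u' + 1 = T.dist r v → u = u' := by
    intro u u' v h1 h2 h1' h2'
    obtain ⟨q, hq, hl⟩ := hT.connected.exists_path_of_dist r u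
    obtain ⟨q', hq', hl'⟩ := hT.connected.exists_path_of_dist r u'
    have np : ∀ {a} (p : T.Walk r a), p.IsPath → p.length < T.dist r v → v ∉ p.support := by
      intro a p hp hlt hm
      have := hpath v _ (hp.takeUntil hm)
      have := p.length_takeUntil_le_length hm
      omega
    have := (hT.existsUnique_path r v).unique (hq.concat (np q hq (by omega)) h1)
      (hq'.concat (np q' hq' (by omega)) h1')
    simpa [SimpleGraph.Walk.penultimate_concat] using congrArg SimpleGraph.Walk.penultimate this
  have hemb : ∀ u, Nonempty (T.neighborSet u ↪ Fin m) := fun u => by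
    have := (Set.finite_of_encard_le_coe (hdeg u)).fintype
    refine Function.Embedding.nonempty_of_card_le ?_
    rw [Fintype.card_fin]
    have h := hdeg u
    rw [Set.encard_eq_coe_toFinset_card, Set.toFinset_card] at h
    exact_mod_cast h
  let emb := fun u => (hemb u).some
  choose par hpar hpard using hparent
  have hmem : ∀ v (hv : v ≠ r), v ∈ T.neighborSet (par v hv) := hpar
  have hex : ∀ d : ℕ, ∃ w : V → List (Fin m),
      (∀ v, T.dist r v ≤ d → (w v).length = T.dist r v) ∧
      ∀ v (hv : v ≠ r), T.dist r v ≤ d →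
        w v = w (par v hv) ++ [emb (par v hv) ⟨v, hmem v hv⟩] := by
    intro d
    induction d with
    | zero =>
      refine ⟨fun _ => [], fun v hv => by simp; omega, fun v hv h => absurd ?_ hv⟩
      exact ((hT.connected r v).dist_eq_zero_iff.1 (by omega)).symm
    | succ d ih =>
      obtain ⟨w, hw1, hw2⟩ := ih
      refine ⟨fun v => if h : v ≠ r ∧ T.dist r v = d + 1
        then w (par v h.1) ++ [emb (par v h.1) ⟨v, hmem v h.1⟩] else w v, fun v hv => ?_,
        fun v hv h => ?_⟩
      · by_cases hc : v ≠ r ∧ T.dist r v = d + 1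
        · have := hpard v hc.1
          simp only [dif_pos hc, List.length_append, List.length_singleton]
          rw [hw1 _ (by omega)]
          omega
        · simp only [dif_neg hc]
          refine hw1 v ?_
          by_cases hvr : v = r
          · subst hvr; simp
          · have : T.dist r v ≠ d + 1 := fun e => hc ⟨hvr, e⟩
            omega
      · have hp := hpard v hv
        have hn : ¬(par v hv ≠ r ∧ T.dist r (par v hv) = d + 1) := fun hh => by omega
        simp only [dif_neg hn]
        by_cases hc : T.dist r v = d + 1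
        · rw [dif_pos ⟨hv, hc⟩]
        · rw [dif_neg fun hh => hc hh.2]
          exact hw2 v hv (by omega)
  choose w hw1 hw2 using hex
  let word : V → List (Fin m) := fun v => w (T.dist r v) v
  have hagree : ∀ n v d, T.dist r v = n → n ≤ d → w d v = word v := by
    intro n
    induction n using Nat.strong_induction_on with
    | _ n ih =>
      intro v d hn hd
      by_cases hv : v = r
      · subst hv
        have h1 := hw1 d v (by omega)
        have h2 := hw1 (T.dist v v) v le_rfl
        rw [SimpleGraph.dist_self, List.length_eq_zero_iff] at h1 h2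
        simp only [word, SimpleGraph.dist_self, h1, h2]
      · have hp := hpard v hv
        simp only [word]
        rw [hw2 d v hv (by omega), hw2 (T.dist r v) v hv le_rfl,
          ih _ (by omega) (par v hv) d rfl (by omega),
          ih _ (by omega) (par v hv) (T.dist r v) rfl (by omega)]
  have hlen : ∀ v, (word v).length = T.dist r v := fun v => hw1 _ v le_rfl
  have hword : ∀ v (hv : v ≠ r), word v = word (par v hv) ++ [emb (par v hv) ⟨v, hmem v hv⟩] :=
    fun v hv => by
      have := hpard v hv
      simp only [word]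
      rw [hw2 _ v hv le_rfl, hagree _ (par v hv) (T.dist r v) rfl (by omega)]
  have hinj : Function.Injective word := by
    intro v v' h
    induction hd : T.dist r v using Nat.strong_induction_on generalizing v v' with
    | _ n ih =>
      have hl := hlen v
      rw [h, hlen v'] at hl
      by_cases hv : v = r
      · subst hv
        rw [SimpleGraph.dist_self] at hl
        exact ((hT.connected _ v').dist_eq_zero_iff.1 hl)
      · by_cases hv' : v' = r
        · subst hv'
          rw [SimpleGraph.dist_self] at hl
          exact ((hT.connected _ v).dist_eq_zero_iff.1 hl.symm).symm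
        · rw [hword v hv, hword v' hv'] at h
          obtain ⟨h1, h2⟩ := List.append_inj' h rfl
          have hp := hpard v hv
          have e := ih _ (by omega) h1 rfl
          have key : ∀ (a b : V) (s : T.neighborSet a) (t : T.neighborSet b),
              a = b → emb a s = emb b t → (s : V) = t := by
            rintro a b s t rfl e
            exact congrArg Subtype.val ((emb a).injective e)
          exact key _ _ _ _ e (List.singleton_inj.1 h2)
  let code : V → FreeGroup (Fin m) := fun v => FreeGroup.mk ((word v).map fun i => (i, true))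
  refine ⟨code, fun u v h => hinj (mk_positive_injective _ _ h), fun u v => ?_⟩
  have hedge : ∀ a b, T.Adj a b → ((code a)⁻¹ * code b).norm ≤ 1 := by
    have hone : ∀ a b, T.Adj a b → T.dist r a + 1 = T.dist r b →
        ((code a)⁻¹ * code b).norm ≤ 1 := by
      intro a b h hab
      have hb : b ≠ r := fun e => by rw [e, SimpleGraph.dist_self] at hab; omega
      obtain rfl := huniq a _ b h hab (hpar b hb) (hpard b hb)
      have e : code b = code (par b hb) *
          FreeGroup.mk [(emb (par b hb) ⟨b, hmem b hb⟩, true)] := by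
        simp only [code, FreeGroup.mul_mk]
        rw [hword b hb, List.map_append]
        rfl
      rw [e, inv_mul_cancel_left]
      exact norm_mk_le _
    intro a b h
    rcases le_total (T.dist r a) (T.dist r b) with hle | hle
    · exact hone a b h (hchild a b h hle).symm
    · rw [← FreeGroup.norm_inv_eq, mul_inv_rev, inv_inv]
      exact hone b a h.symm (hchild b a h.symm hle).symm
  have hwalk : ∀ {a b} (p : T.Walk a b), ((code a)⁻¹ * code b).norm ≤ p.length := by
    intro a b p
    induction p with
    | nil => simp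
    | @cons a c b h p ih =>
      have h1 := hedge _ _ h
      have h2 := FreeGroup.norm_mul_le ((code a)⁻¹ * code c) ((code c)⁻¹ * code b)
      rw [show (code a)⁻¹ * code c * ((code c)⁻¹ * code b) = (code a)⁻¹ * code b by group] at h2
      simp only [SimpleGraph.Walk.length_cons]
      omega
  obtain ⟨q, -, hl⟩ := hT.connected.exists_path_of_dist u v
  exact hl ▸ hwalk q

/-- Bounded-to-one coarse maps into bounded-degree trees. -/
theorem tree_action_trivial [Group.IsFinitelyPresented G]
    (hG : ∀ H : Subgroup G, H.FiniteIndex → H = ⊤)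
    (hA : ∀ (K : Finset G) (ε : ℝ), 0 < ε → ∃ D : Finset G, D.Nonempty ∧
      ∀ g ∈ K, ((symmDiff (D.image (g * ·)) D).card : ℝ) < ε * D.card)
    {X V : Type*} (T : SimpleGraph V) (hT : T.IsTree) {m k : ℕ}
    (hdeg : ∀ v, (T.neighborSet v).encard ≤ m) (ρ : G →* Equiv.Perm X) (pos : X → V)
    (hfib : ∀ v, {x | pos x = v}.encard ≤ k)
    (hdisp : ∀ g, ∃ N : ℕ, ∀ x, T.dist (pos x) (pos (ρ g x)) ≤ N) : ρ = 1 := by
  obtain ⟨code, hinj, hcode⟩ := exists_tree_code T hT hdeg
  refine treelike_trivial hG hA ρ (fun x => code (pos x)) (k := k) (fun v => ?_) fun g => ?_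
  · by_cases hv : ∃ a, code a = v
    · obtain ⟨a, rfl⟩ := hv
      rw [show {x | code (pos x) = code a} = {x | pos x = a} by ext x; simp [hinj.eq_iff]]
      exact hfib a
    · rw [show {x | code (pos x) = v} = ∅ by ext x; simp; exact fun e => hv ⟨_, e⟩]
      simp
  · obtain ⟨N, hN⟩ := hdisp g
    exact ⟨N, fun x => (hcode _ _).trans (hN x)⟩

end Vale.Agent.P196.Tree
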