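import Vale.Agent.P196.Tree.Local

/-!
# P196: a finite consistent family of windows gives a nontrivial finite action
-/

namespace Vale.Agent.P196.Tree

open scoped Classical

variable {n m N k R : ℕ} {G : Type*} [Group G]

/-- Right multiplication by a generator, completed to a permutation of the ball. -/
theorem exists_ball_perm (m N : ℕ) (s : Fin m) :
    ∃ q : Equiv.Perm ↥(ball m N), ∀ u : ↥(ball m N), ∀ h : (u : FG m) * FreeGroup.of s ∈ ball m N,
      q u = ⟨_, h⟩ := by
  let p : ↥(ball m N) → Prop := fun u => (u : FG m) * FreeGroup.of s ∈ ball m N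
  let p' : ↥(ball m N) → Prop := fun u => (u : FG m) * (FreeGroup.of s)⁻¹ ∈ ball m N
  let e : {u // p u} ≃ {u // p' u} :=
    { toFun := fun u => ⟨⟨_, u.2⟩, by simp only [p', mul_inv_cancel_right]; exact u.1.2⟩
      invFun := fun u => ⟨⟨_, u.2⟩, by simp only [p, inv_mul_cancel_right]; exact u.1.2⟩
      left_inv := fun u => by ext; simp
      right_inv := fun u => by ext; simp }
  exact ⟨e.extendSubtype, fun u h => by rw [e.extendSubtype_apply_of_mem u h]; rfl⟩

theorem exists_action {π : FreeGroup (Fin n) →* G} (hπ : Function.Surjective π)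
    {S : Set (FreeGroup (Fin n))} (hS : Subgroup.normalClosure S = π.ker)
    (tests : List (List (Fin n × Bool))) (hrel : ∀ s ∈ S, s.toWord ∈ tests)
    (hpair : ∀ i b, [(i, !b), (i, b)] ∈ tests) (hlen : ∀ w ∈ tests, N * w.length ≤ R)
    {V : Type} [Fintype V] (e : Fin m → Equiv.Perm V) (τ : V → Win n m N k R)
    (hc : ∀ s v, Compat s (τ v) (τ (e s v))) (hgood : ∀ v, Good tests (τ v))
    (hmoved : ∃ v, Moved (τ v)) :
    ∃ (Y : Type) (_ : Finite Y) (σ : G →* Equiv.Perm Y), σ ≠ 1 := by
  choose q hq using exists_ball_perm m N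
  let P := V × ↥(ball m N)
  let e' : Fin m → Equiv.Perm P := fun s => (e s).prodCongr (q s)
  let Φ : FG m →* Equiv.Perm P := FreeGroup.lift fun s => (e' s)⁻¹
  let act : P → FG m → P := fun v u => Φ u⁻¹ v
  have hact : ∀ p u u', act (act p u) u' = act p (u * u') := fun p u u' => by
    show Φ u'⁻¹ (Φ u⁻¹ p) = Φ (u * u')⁻¹ p
    rw [← Equiv.Perm.mul_apply, ← map_mul, ← mul_inv_rev]
  have hact1 : ∀ p, act p 1 = p := fun p => by
    show Φ 1⁻¹ p = p
    rw [inv_one, map_one]; rfl
  have hgen : ∀ p s, act p (FreeGroup.of s) = e' s p := fun p s => by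
    show Φ (FreeGroup.of s)⁻¹ p = _
    rw [map_inv]; simp only [Φ, FreeGroup.lift_apply_of, inv_inv]
  have hgen' : ∀ p s, act p (FreeGroup.of s)⁻¹ = (e' s)⁻¹ p := fun p s => by
    show Φ (FreeGroup.of s)⁻¹⁻¹ p = _
    rw [inv_inv]; simp only [Φ, FreeGroup.lift_apply_of]
  have hfst : ∀ p s, (e' s p).1 = e s p.1 := fun p s => rfl
  have hfst' : ∀ p s, ((e' s)⁻¹ p).1 = (e s).symm p.1 := fun p s => rfl
  let c : P → Col n m N k := fun p => centre (τ p.1)
  have key : ∀ (w : List (Fin m × Bool)) (hw : w.length ≤ R) (p : P),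
      c (act p (FreeGroup.mk w)) =
        τ p.1 ⟨FreeGroup.mk w, mem_ball.2 ((norm_mk_le w).trans hw)⟩ := by
    intro w
    induction w with
    | nil => intro _ p; simp [c, ← FreeGroup.one_eq_mk, hact1, centre]
    | cons a w ih =>
      intro hw p
      simp only [List.length_cons] at hw
      have hu : FreeGroup.mk w ∈ ball m R := mem_ball.2 ((norm_mk_le w).trans (by omega))
      have hau : FreeGroup.mk (a :: w) ∈ ball m R := mem_ball.2 ((norm_mk_le _).trans (by simpa using hw))
      obtain ⟨s, _ | _⟩ := a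
      · have he : FreeGroup.mk ((s, false) :: w) = (FreeGroup.of s)⁻¹ * FreeGroup.mk w := by
          rw [FreeGroup.of, FreeGroup.inv_mk, FreeGroup.mul_mk]; rfl
        simp only [he] at hau ⊢
        have h := hc s ((e' s)⁻¹ p).1 _ hau (by rw [mul_inv_cancel_left]; exact hu)
        simp only [mul_inv_cancel_left] at h
        rw [← hact, hgen', ih (by omega), h, hfst']
        simp
      · have he : FreeGroup.mk ((s, true) :: w) = FreeGroup.of s * FreeGroup.mk w := by
          rw [FreeGroup.of, FreeGroup.mul_mk]; rfl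
        simp only [he] at hau ⊢
        have h := hc s p.1 _ hu hau
        rw [← hact, hgen, ih (by omega), h, hfst]
  have hwin : ∀ p : P, ∀ u : ↥(ball m R), τ p.1 u = c (act p u) := fun p u => by
    have := key (u : FG m).toWord (mem_ball.1 u.2) p
    simp only [FreeGroup.mk_toWord] at this
    exact this.symm
  have hsecond : ∀ (w : List (Fin m × Bool)) (p : P), (p.2 : FG m).norm + w.length ≤ N →
      ((act p (FreeGroup.mk w)).2 : FG m) = p.2 * FreeGroup.mk w := by
    intro w
    induction w with
    | nil => intro p _; simp [← FreeGroup.one_eq_mk, hact1]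
    | cons a w ih =>
      intro p hp
      simp only [List.length_cons] at hp
      have hmk : FreeGroup.mk (a :: w) = FreeGroup.mk [a] * FreeGroup.mk w := by
        rw [FreeGroup.mul_mk]; rfl
      have hmem : (p.2 : FG m) * FreeGroup.mk [a] ∈ ball m N := mem_ball.2 (by
        have := FreeGroup.norm_mul_le (p.2 : FG m) (FreeGroup.mk [a])
        have := norm_mk_le [a]
        simp only [List.length_singleton] at this
        omega)
      have hone : ((act p (FreeGroup.mk [a])).2 : FG m) = p.2 * FreeGroup.mk [a] := by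
        obtain ⟨s, _ | _⟩ := a
        · have he : FreeGroup.mk [(s, false)] = (FreeGroup.of s)⁻¹ := by
            rw [FreeGroup.of, FreeGroup.inv_mk]; rfl
          rw [he] at hmem ⊢
          rw [hgen']
          have h := hq s ⟨_, hmem⟩ (by simp)
          simp only [inv_mul_cancel_right] at h
          show (((e s).prodCongr (q s)).symm p).2.1 = _
          simp only [Equiv.prodCongr_symm, Equiv.prodCongr_apply, Prod.map_snd]
          rw [(Equiv.symm_apply_eq (q s)).2 h.symm]
        · have he : FreeGroup.mk [(s, true)] = FreeGroup.of s := rfl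
          rw [he] at hmem ⊢
          rw [hgen]
          show (((e s).prodCongr (q s)) p).2.1 = _
          simp [hq s p.2 hmem]
      rw [hmk, ← hact, ih _ (by
        rw [hone]
        have := FreeGroup.norm_mul_le (p.2 : FG m) (FreeGroup.mk [a])
        have := norm_mk_le [a]
        simp only [List.length_singleton] at this
        omega), hone, mul_assoc]
  have hwalk : ∀ (p : P) (i : Fin k), (c p i).isSome → ∀ w ∈ tests,
      walk act c w (p, i) = some (p, i) := by
    intro p i hi w hw
    rw [← walk_shift hact (hact1 p) (hwin p) i w (hlen w hw), hgood p.1 i hi w hw]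
    simp [hact1]
  let Y := {p : P × Fin k // (c p.1 p.2).isSome}
  have hstep : ∀ (l : Fin n × Bool) (y : Y), ∃ y' : Y, step act c l y.1 = some y'.1 ∧
      step act c (l.1, !l.2) y'.1 = some y.1 := by
    intro l y
    have h := hwalk y.1.1 y.1.2 y.2 _ (hpair l.1 (!l.2) |> fun h => by
      rw [Bool.not_not] at h; exact (h : [(l.1, l.2), (l.1, !l.2)] ∈ tests))
    have h' := hwalk y.1.1 y.1.2 y.2 [(l.1, !l.2), (l.1, l.2)] (hpair l.1 l.2)
    simp only [walk, Option.bind_some, Option.bind_eq_some_iff] at h'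
    obtain ⟨r, hr, hr'⟩ := h'
    refine ⟨⟨r, ?_⟩, hr, hr'⟩
    by_contra hn
    simp only [Option.not_isSome_iff_eq_none] at hn
    simp [step, hn] at hr'
  choose g hg hg' using hstep
  have ginv : ∀ l y, g (l.1, !l.2) (g l y) = y := fun l y => Subtype.ext (Option.some_injective _
    ((hg (l.1, !l.2) (g l y)).symm.trans (hg' l y)))
  let E : Fin n → Equiv.Perm Y := fun i =>
    ⟨g (i, true), g (i, false), ginv (i, true), ginv (i, false)⟩
  let ψ : FreeGroup (Fin n) →* Equiv.Perm Y := FreeGroup.lift E
  have hψ : ∀ (w : List (Fin n × Bool)) (y : Y),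
      walk act c w y.1 = some (ψ (FreeGroup.mk w) y).1 := by
    intro w y
    induction w with
    | nil => simp [walk, ← FreeGroup.one_eq_mk]
    | cons l w ih =>
      have h : FreeGroup.mk (l :: w) = FreeGroup.mk [l] * FreeGroup.mk w := by
        rw [FreeGroup.mul_mk]; rfl
      rw [walk, ih, Option.bind_some, h, map_mul, Equiv.Perm.mul_apply]
      obtain ⟨i, _ | _⟩ := l <;> simp [ψ, FreeGroup.lift_mk, E, hg]
  have hker : π.ker ≤ ψ.ker := by
    rw [← hS]
    refine Subgroup.normalClosure_le_normal fun s hs => MonoidHom.mem_ker.2 (Equiv.ext fun y => ?_)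
    have h := hψ s.toWord y
    rw [FreeGroup.mk_toWord, hwalk y.1.1 y.1.2 y.2 _ (hrel s hs)] at h
    rw [Equiv.Perm.one_apply]
    exact Subtype.ext (Option.some_injective _ h).symm
  refine ⟨Y, inferInstance, π.liftOfSurjective hπ ⟨ψ, hker⟩, fun h1 => ?_⟩
  obtain ⟨v, i, f, l, t, hf, ht, hne⟩ := hmoved
  have hy : (c (v, ⟨1, one_mem_ball⟩) i).isSome := by simp [c, hf]
  let y : Y := ⟨((v, ⟨1, one_mem_ball⟩), i), hy⟩
  have hψ1 : ψ (FreeGroup.mk [l]) = 1 := by
    have := DFunLike.congr_fun h1 (π (FreeGroup.mk [l]))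
    rw [MonoidHom.one_apply] at this
    rw [← this]
    exact (MonoidHom.liftOfRightInverse_comp_apply π _ _ ⟨ψ, hker⟩ _).symm
  have h := hψ [l] y
  rw [hψ1, Equiv.Perm.one_apply] at h
  simp only [walk, Option.bind_some, step, y, c, hf, ht, Option.map_some, Option.some.injEq,
    Prod.mk.injEq] at h
  have h2 := hsecond (t.1 : FG m).toWord (v, ⟨1, one_mem_ball⟩)
    (by have := mem_ball.1 t.1.2; simp only [FreeGroup.norm_one, zero_add]; exact this)
  rw [FreeGroup.mk_toWord, h.1] at h2
  rcases hne with hne | hne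
  · exact hne (by simpa using h2.symm)
  · exact hne h.2

/-- An exact integer flow on windows gives a finite model. -/
theorem exists_model (w : Win n m N k R → ℕ) (p : Fin m → Win n m N k R → Win n m N k R → ℕ)
    (hout : ∀ s a, a ≠ emptyWin n m N k R → ∑ b, p s a b = w a)
    (hin : ∀ s b, b ≠ emptyWin n m N k R → ∑ a, p s a b = w b)
    (hsupp : ∀ s a b, ¬ Compat s a b → p s a b = 0) (good : Win n m N k R → Prop)
    (hgood : ∀ a, ¬ good a → w a = 0) (hempty : good (emptyWin n m N k R))
    (moved : Win n m N k R → Prop) (hne : ∀ a, moved a → a ≠ emptyWin n m N k R)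
    (hmoved : ∃ a, moved a ∧ w a ≠ 0) :
    ∃ (V : Type) (_ : Fintype V) (e : Fin m → Equiv.Perm V) (τ : V → Win n m N k R),
      (∀ s v, Compat s (τ v) (τ (e s v))) ∧ (∀ v, good (τ v)) ∧ ∃ v, moved (τ v) := by
  set o := emptyWin n m N k R with ho
  set out : Fin m → ℕ := fun s => ∑ b ∈ Finset.univ.erase o, p s o b with hout'
  set inn : Fin m → ℕ := fun s => ∑ a ∈ Finset.univ.erase o, p s a o with hinn'
  set W : ℕ := ∑ s, (out s + inn s) with hW
  let w' : Win n m N k R → ℕ := fun a => if a = o then W else w a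
  let p' : Fin m → Win n m N k R → Win n m N k R → ℕ := fun s a b =>
    if a = o ∧ b = o then W - out s else p s a b
  have hWs : ∀ s, out s + inn s ≤ W := fun s =>
    Finset.single_le_sum (f := fun s => out s + inn s) (fun _ _ => Nat.zero_le _) (Finset.mem_univ s)
  have hbal : ∀ s, out s = inn s := by
    intro s
    have h1 : ∑ a ∈ Finset.univ.erase o, ∑ b, p s a b = ∑ a ∈ Finset.univ.erase o, w a :=
      Finset.sum_congr rfl fun a ha => hout s a (Finset.ne_of_mem_erase ha)
    have h2 : ∑ b ∈ Finset.univ.erase o, ∑ a, p s a b = ∑ a ∈ Finset.univ.erase o, w a :=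
      Finset.sum_congr rfl fun a ha => hin s a (Finset.ne_of_mem_erase ha)
    have h3 : ∀ a, ∑ b, p s a b = p s a o + ∑ b ∈ Finset.univ.erase o, p s a b := fun a =>
      (Finset.add_sum_erase _ _ (Finset.mem_univ o)).symm
    have h4 : ∀ b, ∑ a, p s a b = p s o b + ∑ a ∈ Finset.univ.erase o, p s a b := fun b =>
      (Finset.add_sum_erase _ (fun a => p s a b) (Finset.mem_univ o)).symm
    simp only [h3, h4, Finset.sum_add_distrib] at h1 h2
    rw [Finset.sum_comm (f := fun b a => p s a b)] at h2
    simp only [hout', hinn']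
    omega
  have hrow : ∀ s a, ∑ b, p' s a b = w' a := by
    intro s a
    by_cases ha : a = o
    · subst ha
      rw [← Finset.add_sum_erase _ _ (Finset.mem_univ o)]
      have : ∑ b ∈ Finset.univ.erase o, p' s o b = out s := Finset.sum_congr rfl fun b hb => by
        simp [p', Finset.ne_of_mem_erase hb]
      rw [this]
      simp only [p', w', and_self, if_true]
      have := hWs s
      omega
    · simp only [p', w', ha, false_and, if_false]
      exact hout s a ha
  have hcol : ∀ s b, ∑ a, p' s a b = w' b := by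
    intro s b
    by_cases hb : b = o
    · subst hb
      rw [← Finset.add_sum_erase _ _ (Finset.mem_univ o)]
      have : ∑ a ∈ Finset.univ.erase o, p' s a o = inn s := Finset.sum_congr rfl fun a ha => by
        simp [p', Finset.ne_of_mem_erase ha]
      rw [this, ← hbal]
      simp only [p', w', and_self, if_true]
      have := hWs s
      omega
    · simp only [p', w', hb, and_false, if_false]
      exact hin s b hb
  let V := Σ a : Win n m N k R, Fin (w' a)
  let T : Fin m → Type := fun s => Σ a : Win n m N k R, Σ b : Win n m N k R, Fin (p' s a b)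
  let T' : Fin m → Type := fun s => Σ b : Win n m N k R, Σ a : Win n m N k R, Fin (p' s a b)
  let flip : ∀ s, T s ≃ T' s := fun s =>
    ⟨fun t => ⟨t.2.1, t.1, t.2.2⟩, fun t => ⟨t.2.1, t.1, t.2.2⟩, fun t => rfl, fun t => rfl⟩
  let r1 : ∀ s, V ≃ T s := fun s =>
    Equiv.sigmaCongrRight fun a => (Fintype.equivFinOfCardEq (by simp [hrow s a])).symm
  let r2 : ∀ s, V ≃ T' s := fun s =>
    Equiv.sigmaCongrRight fun b => (Fintype.equivFinOfCardEq (by simp [hcol s b])).symm
  refine ⟨V, inferInstance, fun s => ((r1 s).trans (flip s)).trans (r2 s).symm, fun v => v.1,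
    fun s v => ?_, fun v => ?_, ?_⟩
  · have key : ∀ a b, p' s a b ≠ 0 → Compat s a b := fun a b h0 => by
      by_contra hcomp
      simp only [p'] at h0
      split_ifs at h0 with h
      · exact hcomp (by rw [h.1, h.2]; intro u hu hsu; rfl)
      · exact h0 (hsupp s _ _ hcomp)
    exact key _ _ (Fin.pos (r1 s v).2.2).ne'
  · obtain ⟨a, i⟩ := v
    by_cases ha : a = o
    · subst ha; exact hempty
    · by_contra hg
      have : w' a = 0 := by simp only [w', ha, if_false]; exact hgood a hg
      exact (Fin.cast this i).elim0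
  · obtain ⟨a, ha, haw⟩ := hmoved
    have : w' a ≠ 0 := by simp only [w', hne a ha, if_false]; exact haw
    exact ⟨⟨a, ⟨0, Nat.pos_of_ne_zero this⟩⟩, ha⟩

end Vale.Agent.P196.Tree
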